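import Vale.Agent.P207Z.Char.Apx.Fd

/-!
# P207: the cocycle of the jets along the stable axes (block CH-C3, part 2)
-/

set_option linter.all false

open Set Filter Topology Metric MeasureTheory Asymptotics
open scoped ContDiff

noncomputable section

namespace Vale.Agent.P207Z.Apx

open Vale.Agent.P207.N3 (JC)
open Lift

variable {Γ X B E V : Type} [Group Γ] [Countable Γ] [MetricSpace X] [ProperSpace X]
  [MulAction Γ X] [IsIsometricSMul Γ X] [MeasurableSpace X] [BorelSpace X]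
  [TopologicalSpace B] [CompactSpace B] [T2Space B] [SecondCountableTopology B] [MulAction Γ B]
  [ContinuousConstSMul Γ B] [MeasurableSpace B] [BorelSpace B]
  [NormedAddCommGroup E] [InnerProductSpace ℝ E] [FiniteDimensional ℝ E]
  [NormedAddCommGroup V] [NormedSpace ℝ V] [FiniteDimensional ℝ V]
  {F : Type} [NormedAddCommGroup F] [NormedSpace ℝ F] [FiniteDimensional ℝ F]
  {S : Sys Γ X B E V} {Y : Type} [MeasurableSpace Y] [MulAction Γ Y]
  {f : X × X → V → F →L[ℝ] F} {x y z : X} {w : E}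

/-- a smooth linear cocycle of pull backs -/
structure Cy (S : Sys Γ X B E V) (f : X × X → V → F →L[ℝ] F) : Prop where
  jc : JC f S.Dm
  smul : ∀ (g : Γ) x y, ∀ q ∈ S.dom x y, f (g • x, g • y) q = f (x, y) q
  coc : ∀ x y z, ∀ q ∈ S.dom x y, q ∈ S.dom x z → f (x, y) q * f (y, z) (S.τ x y q) = f (x, z) q

/-- the transition maps on the stable axes -/
def th (S : Sys Γ X B E V) (x y : X) (h : E) : E := S.pS (S.τ x y (S.iS h))

theorem ev_dom (h : S.pt x = S.pt y) : ∀ᶠ u in 𝓝 (0 : E), S.iS u ∈ S.dom x y :=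
  S.iS.continuous.continuousAt.preimage_mem_nhds
    (by rw [map_zero]; exact Sys.dom_nhds (Sys.zero_dom h))

theorem iS_pS_of {v : V} (h : S.pU v = 0) : S.iS (S.pS v) = v := by
  have := S.iS_add v
  rwa [h, map_zero, add_zero] at this

theorem iS_th (he : S.ep x = S.ep y) (h : S.iS w ∈ S.dom x y) :
    S.iS (th S x y w) = S.τ x y (S.iS w) :=
  iS_pS_of ((Sys.pU_τ he h).2 (S.pU_iS w))

theorem th_sm (h : S.iS w ∈ S.dom x y) : ContDiffAt ℝ ∞ (th S x y) w :=
  S.pS.contDiff.contDiffAt.comp w ((Sys.contDiffAt_τ h).comp w S.iS.contDiff.contDiffAt)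

theorem th_zero (h : S.pt x = S.pt y) : th S x y 0 = 0 := by
  rw [th, map_zero, Sys.τ_zero h, map_zero]

theorem dom0 (h : S.pt x = S.pt y) : S.iS 0 ∈ S.dom x y := by
  rw [map_zero]; exact Sys.zero_dom h

theorem jc_ax {W : Type} [NormedAddCommGroup W] [NormedSpace ℝ W] {g : X × X → V → W}
    (h : JC g S.Dm) : JC (fun (p : X × X) (u : E) => g (p.2, p.1) (S.iS u))
      {p | S.iS p.2 ∈ S.dom p.1.2 p.1.1} := by
  have h1 := h.pullback (c := fun p : X × X => (p.2, p.1)) (by fun_prop)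
  have h2 : IsOpen {p : (X × X) × E | S.iS p.2 ∈ S.dom p.1.2 p.1.1} :=
    Sys.isOpen_Dm.preimage (f := fun p : (X × X) × E => ((p.1.2, p.1.1), S.iS p.2)) (by fun_prop)
  exact h1.comp' (JC.of_contDiff S.iS.contDiff h2) fun p hp => hp

namespace Cy

variable (H : Cy S f) (N : ℕ)
include H

theorem sm (h : S.iS w ∈ S.dom x y) : ContDiffAt ℝ ∞ (fun u => f (x, y) (S.iS u)) w :=
  (H.jc.contDiffAt (p := ((x, y), S.iS w)) h).comp w S.iS.contDiff.contDiffAt

theorem app (h : S.pt y = S.pt x) (a : Jet N E F) :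
    jetL N (th S y x) (fun u => f (y, x) (S.iS u)) a
      = jet N (fun u => f (y, x) (S.iS u) (poly a (th S y x u))) 0 :=
  jetL_apply (cda (th_sm (dom0 h)) N) (cda (H.sm (dom0 h)) N) a

theorem app_jet (h : S.pt y = S.pt x) {s : E → F} (hs : ContDiffAt ℝ ∞ s 0) :
    jetL N (th S y x) (fun u => f (y, x) (S.iS u)) (jet N s 0)
      = jet N (fun u => f (y, x) (S.iS u) (s (th S y x u))) 0 :=
  jetL_jet (cda (th_sm (dom0 h)) N) (cda (H.sm (dom0 h)) N) (th_zero h) (cda hs N)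

theorem sm_pb (h : S.pt y = S.pt x) (a : Jet N E F) :
    ContDiffAt ℝ ∞ (fun u => f (y, x) (S.iS u) (poly a (th S y x u))) 0 :=
  (H.sm (dom0 h)).clm_apply ((contDiff_poly a).contDiffAt.comp 0 (th_sm (dom0 h)))

/-- the cocycle on the jets along the stable axes -/
def coc0 : Coc0 S (Jet N E F) where
  Φ x y := jetL N (th S y x) fun u => f (y, x) (S.iS u)
  cont := (continuousOn_jetL ((jc_ax Sys.jc_τ).clm S.pS) (jc_ax H.jc) N).mono
    fun p hp => dom0 (Eq.symm hp)
  coc x y z hy hz := by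
    ext1 a
    have hzy : S.pt z = S.pt y := hz.symm.trans hy
    rw [ContinuousLinearMap.mul_apply, H.app N hy.symm, H.app_jet N hzy (H.sm_pb N hy.symm a),
      H.app N hz.symm]
    refine jet_congr ?_
    filter_upwards [ev_dom hzy, ev_dom hz.symm] with u h1 h2
    have e1 := iS_th (congrArg Prod.snd hzy) h1
    rw [← H.coc z y x _ h1 h2, ContinuousLinearMap.mul_apply, e1]
    simp only [th] at e1 ⊢
    rw [e1, Sys.τ_trans h1 h2]
  smul g x y h := by
    ext1 a
    rw [H.app N h.symm, H.app N ((S.pt_smul_iff g).2 h.symm)]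
    refine jet_congr ?_
    filter_upwards [ev_dom h.symm] with u h1
    rw [H.smul g y x _ h1]
    simp only [th]
    rw [Sys.τ_smul g h1]

theorem hol (h : S.pt x = S.pt y) (b : Jet N E F) :
    jet N (poly ((H.coc0 N).Φ x y b)) 0 = (H.coc0 N).Φ x y b := by
  show jet N (poly (jetL N _ _ b)) 0 = jetL N _ _ b
  rw [H.app N h.symm, jet_poly_jet (cda (H.sm_pb N h.symm b) N)]

theorem jet_it (St : S.Step) (x : X) (k n : ℕ) {s : E → F} (hs : ContDiffAt ℝ ∞ s 0) :
    jet N (It (St.θ x) (fun k w => f (St.o x k, St.o x (k + 1)) (S.iS w)) k (n + 1) s) 0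
      = (H.coc0 N).Φ (St.o x (k + (n + 1))) (St.o x k) (jet N s 0) := by
  show _ = jetL N _ _ _
  rw [H.app_jet N (St.pt_o.trans St.pt_o.symm) hs]
  refine jet_congr (eventually_of_mem (ball_mem_nhds _ St.ρ_pos) fun u hu => ?_)
  exact St.it_eq H.coc s hu

/-- **Approximation by a finite dimensional family**, almost everywhere. -/
theorem ae_fd (P : Prob S Y) (St : S.Step) (p : ℕ) {γ : ℝ} (hγ : 0 < γ) :
    ∃ (N : ℕ) (G : ℝ), 1 ≤ G ∧ ∀ᵐ x ∂S.μ, ∃ (Λ : E → Jet N E F →L[ℝ] F) (C : ℝ), 1 ≤ C ∧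
      (∀ u ∈ ball (0 : E) St.ρ, ContDiffAt ℝ ∞ Λ u) ∧ ∀ (m : ℕ) (s : E → F) (K : ℝ),
        Bd St.ρ (p + (N + 1)) s K → ∃ f₀ : Jet N E F, ‖f₀‖ ≤ C * G ^ m * K ∧
          Bd St.ρ p (fun u => It (St.θ x) (fun k w => f (St.o x k, St.o x (k + 1)) (S.iS w))
            0 m s u - Λ u f₀) (C * γ ^ m * K) := by
  obtain ⟨M, c, hM, hD⟩ := St.dat H.jc H.smul
  have hT : 0 < St.T := by linarith [St.T_pos]
  obtain ⟨a, ha⟩ : ∃ a : ℝ, 2 * Real.exp (-(St.T * a)) * Real.exp (2 * St.T) = γ := by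
    refine ⟨(2 * St.T - Real.log (γ / 2)) / St.T, ?_⟩
    rw [mul_div_cancel₀ _ hT.ne', mul_assoc, ← Real.exp_add]
    rw [show -(2 * St.T - Real.log (γ / 2)) + 2 * St.T = Real.log (γ / 2) by ring,
      Real.exp_log (by positivity)]
    ring
  set γ₁ := Real.exp (-(St.T * a)) with hγ₁
  set g := Real.exp (St.T * (a + 1)) with hg
  have hγ0 : 0 < γ₁ := Real.exp_pos _
  have hg0 : 0 < g := Real.exp_pos _
  have hM0 : 0 < M := by linarith
  obtain ⟨N, hN⟩ := exists_pow_lt_of_lt_one (lt_min (by positivity : 0 < (M * g)⁻¹)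
    (by positivity : 0 < γ₁ / M)) (by norm_num : (1 / 2 : ℝ) < 1)
  have hN' : (1 / 2 : ℝ) ^ (N + 1) ≤ (1 / 2) ^ N :=
    pow_le_pow_of_le_one (by norm_num) (by norm_num) (Nat.le_succ N)
  have h1 : M * (1 / 2) ^ (N + 1) * g < 1 := by
    have := (hN'.trans_lt hN).trans_le (min_le_left _ _)
    rw [lt_inv_comm₀ (by positivity) (by positivity), lt_inv_comm₀ (by positivity) (by positivity),
      ← one_div, lt_div_iff₀ (by positivity)] at this
    linarith
  have h2 : M * (1 / 2) ^ (N + 1) ≤ γ₁ := by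
    have := (hN'.trans_lt hN).trans_le (min_le_right _ _)
    rw [lt_div_iff₀ hM0] at this
    linarith
  set C0 := H.coc0 N with hC0
  obtain ⟨L, hL⟩ := C0.fcoc
  obtain ⟨Λ, -, hsp⟩ := C0.split P a one_pos
  refine ⟨N, Real.exp (L * St.T), Real.one_le_exp (mul_nonneg hL.nn hT.le), ?_⟩
  filter_upwards [hsp.ae] with x ⟨n, hn⟩
  have hback : ∀ m : ℕ, C0.fl (-(m * St.T)) (S.φ (m * St.T) x) = C0.Φ (St.o x m) x := fun m => by
    rw [Coc0.fl, ← S.φ_add, neg_add_cancel, S.φ_zero]; rfl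
  have hfl0 : C0.fl 0 x = C0.Φ x x := by rw [Coc0.fl, S.φ_zero]
  have habs : ∀ m : ℕ, |(m : ℝ) * St.T| = m * St.T := fun m => abs_of_nonneg (by positivity)
  have hsl : ∀ k m : ℕ, m ≤ k → ‖C0.Φ x (St.o x k) * C0.slow Λ a x * C0.Φ (St.o x m) x‖
      ≤ n * Real.exp ((k * St.T - m * St.T) * a + (m * St.T + k * St.T)) := fun k m h => by
    have := (hn (m * St.T) (k * St.T)).1 (mul_le_mul_of_nonneg_right (by exact_mod_cast h) hT.le)
    rwa [hback, habs, habs, one_mul] at this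
  have hfa : ∀ k m : ℕ, k ≤ m →
      ‖C0.Φ x (St.o x k) * (C0.Φ x x - C0.slow Λ a x) * C0.Φ (St.o x m) x‖
      ≤ n * Real.exp ((k * St.T - m * St.T) * a + (m * St.T + k * St.T)) := fun k m h => by
    have := (hn (m * St.T) (k * St.T)).2 (mul_le_mul_of_nonneg_right (by exact_mod_cast h) hT.le)
    rwa [hback, habs, habs, one_mul, hfl0] at this
  have hpt : ∀ k, S.pt x = S.pt (St.o x k) := fun k => St.pt_o.symm
  have hid : ∀ m, C0.Φ x x * C0.Φ (St.o x m) x = C0.Φ (St.o x m) x := fun m =>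
    C0.coc _ _ _ (hpt m).symm (hpt m).symm
  obtain ⟨Λ', C, hC, hΛ, hfd⟩ := fd (hD x) St.ρ_pos (by linarith [St.ρ_le]) (by norm_num)
    (by norm_num) hM0 hg0 hγ0 h1 h2 (fun k => C0.Φ x (St.o x k) * C0.slow Λ a x * C0.Φ x x)
    (fun k b => H.hol N (hpt k) _) (fun k b => by
      refine (H.app N (St.pt_o.trans St.pt_o.symm) _).symm.trans ?_
      show (C0.Φ (St.o x (k + 1)) (St.o x k) * C0.Φ x (St.o x (k + 1))) _ = _
      rw [C0.coc _ _ _ (hpt _) (hpt _)]
      rfl)
    ⟨n, fun k => by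
      have := hsl k 0 (Nat.zero_le k)
      rw [St.o_zero] at this
      refine this.trans (le_of_eq ?_)
      rw [hg, ← Real.exp_nat_mul]
      congr 2
      push_cast
      ring⟩ p
  refine ⟨Λ', max (Real.exp (L * 2)) (C * (n + 1)),
    le_max_of_le_left (Real.one_le_exp (by linarith [hL.nn])), hΛ, fun m s K hs => ?_⟩
  have h0 : (0 : E) ∈ ball (0 : E) St.ρ := mem_ball_self St.ρ_pos
  have hK : 0 ≤ K := (hs 0 h0).nonneg
  have hj : ‖jet N s 0‖ ≤ K := norm_jet_le hK fun i hi => (hs 0 h0).bd i (by omega)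
  have hE : 1 ≤ Real.exp (2 * St.T) ^ m := one_le_pow₀ (Real.one_le_exp (by linarith))
  refine ⟨C0.Φ (St.o x m) x (jet N s 0), ?_, ?_⟩
  · refine ((ContinuousLinearMap.le_opNorm _ _).trans
      (mul_le_mul ?_ hj (norm_nonneg _) (by positivity)))
    rw [← hback]
    refine (hL.bd _ _).trans ?_
    rw [abs_neg, habs, mul_add, Real.exp_add, mul_comm, ← Real.exp_nat_mul]
    refine mul_le_mul (le_max_left _ _) (le_of_eq (by congr 1; ring)) (by positivity)
      (by positivity)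
  · have hP : ∀ k, (C0.Φ x (St.o x k) * C0.slow Λ a x * C0.Φ x x) (C0.Φ (St.o x m) x (jet N s 0))
        = (C0.Φ x (St.o x k) * C0.slow Λ a x * C0.Φ (St.o x m) x) (jet N s 0) := fun k => by
      rw [← ContinuousLinearMap.mul_apply, mul_assoc, hid]
    refine bd_le (hfd m s _ ((n + 1) * Real.exp (2 * St.T) ^ m * K) (bd_le hs le_rfl ?_)
      (fun k => ?_) fun k hk => ?_) le_rfl ?_
    · exact le_mul_of_one_le_left hK (one_le_mul_of_one_le_of_one_le (by simp) hE)
    · rw [hP]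
      refine ((ContinuousLinearMap.le_opNorm _ _).trans
        (mul_le_mul (hsl _ _ (Nat.le_add_right m k)) hj (norm_nonneg _) (by positivity))).trans ?_
      have e : Real.exp ((((m + k : ℕ) : ℝ) * St.T - m * St.T) * a
          + (m * St.T + ((m + k : ℕ) : ℝ) * St.T)) = Real.exp (2 * St.T) ^ m * g ^ k := by
        rw [hg, ← Real.exp_nat_mul, ← Real.exp_nat_mul, ← Real.exp_add]
        congr 1
        push_cast
        ring
      rw [e]
      have : 0 ≤ Real.exp (2 * St.T) ^ m * K * g ^ k := by positivity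
      nlinarith
    · obtain ⟨i, rfl⟩ : ∃ i, m = k + (i + 1) := ⟨m - k - 1, by omega⟩
      rw [Nat.add_sub_cancel_left, H.jet_it N St x k i (hs 0 h0).sm, hP,
        ← C0.coc _ x _ (hpt _).symm (St.pt_o.trans St.pt_o.symm), ← hid,
        ← ContinuousLinearMap.sub_apply, ← mul_assoc, hid, ← sub_mul, ← mul_sub]
      refine ((ContinuousLinearMap.le_opNorm _ _).trans
        (mul_le_mul (hfa _ _ hk.le) hj (norm_nonneg _) (by positivity))).trans ?_
      have e : Real.exp ((k * St.T - ((k + (i + 1) : ℕ) : ℝ) * St.T) * a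
          + (((k + (i + 1) : ℕ) : ℝ) * St.T + k * St.T))
          ≤ Real.exp (2 * St.T) ^ (k + (i + 1)) * γ₁ ^ (i + 1) := by
        rw [hγ₁, ← Real.exp_nat_mul, ← Real.exp_nat_mul, ← Real.exp_add]
        refine Real.exp_le_exp.2 ?_
        push_cast
        have : 0 ≤ ((i : ℝ) + 1) * St.T := by positivity
        nlinarith
      have h3 := mul_le_mul_of_nonneg_right (mul_le_mul_of_nonneg_left e (Nat.cast_nonneg n)) hK
      have : 0 ≤ Real.exp (2 * St.T) ^ (k + (i + 1)) * K * γ₁ ^ (i + 1) := by positivity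
      nlinarith
    · have h3 : (m : ℝ) + 1 ≤ 2 ^ m := by exact_mod_cast Nat.lt_two_pow_self
      rw [← ha, mul_pow, mul_pow]
      calc C * (m + 1) * γ₁ ^ m * ((n + 1) * Real.exp (2 * St.T) ^ m * K)
          = C * (n + 1) * ((m + 1) * γ₁ ^ m * Real.exp (2 * St.T) ^ m) * K := by ring
        _ ≤ _ := by gcongr; exact le_max_right _ _

end Cy

end Vale.Agent.P207Z.Apx
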