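import Vale.Agent.P207Z.Char.JT
import Vale.Agent.P207Z.An.LK

/-!
# P207: approximation of pulled back sections by a finite dimensional family (block CH-C3, part 1)
-/

set_option linter.all false

open Set Filter Topology Metric
open scoped ContDiff

noncomputable section

namespace Vale.Agent.P207Z.Apx

open Lift

variable {E F J : Type} [NormedAddCommGroup E] [NormedSpace ℝ E] [FiniteDimensional ℝ E]
  [NormedAddCommGroup F] [NormedSpace ℝ F] [FiniteDimensional ℝ F]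
  [NormedAddCommGroup J] [NormedSpace ℝ J]
  {ρ q M : ℝ} {c : ℕ → ℝ} {θ : ℕ → E → E} {B : ℕ → E → F →L[ℝ] F}

theorem bd_congr {j : ℕ} {s s' : E → F} {K : ℝ} (h : Bd ρ j s K)
    (e : ∀ u ∈ ball (0 : E) ρ, s' u = s u) : Bd ρ j s' K := fun u hu =>
  (h u hu).congr (eventually_of_mem (isOpen_ball.mem_nhds hu) e)

theorem bd_le {i j : ℕ} {s : E → F} {K K' : ℝ} (h : Bd ρ j s K) (hi : i ≤ j) (hK : K ≤ K') :
    Bd ρ i s K' := fun u hu => (h u hu).mono hi hK

theorem pb_polyL (E F : Type) [NormedAddCommGroup E] [NormedSpace ℝ E] [FiniteDimensional ℝ E]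
    [NormedAddCommGroup F] [NormedSpace ℝ F] (N j : ℕ) : ∃ C : ℝ, 1 ≤ C ∧
    ∀ (J : Type) [NormedAddCommGroup J] [NormedSpace ℝ J] (P : J →L[ℝ] Jet N E F) (u : E),
      ‖u‖ ≤ 1 → Pb j (fun u => polyL N E F u ∘L P) u (C * ‖P‖) := by
  obtain ⟨C, hC, h⟩ := pb_ball (contDiff_polyL (k := N) (V := E) (W := F)) 1 j
  refine ⟨C, hC, fun J _ _ P u hu => ?_⟩
  have := (h u hu).clm ((ContinuousLinearMap.compL ℝ J (Jet N E F) F).flip P)
  refine this.le ?_
  rw [mul_comm]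
  refine mul_le_mul_of_nonneg_left ?_ (by linarith)
  refine ContinuousLinearMap.opNorm_le_bound _ (norm_nonneg _) fun A => ?_
  rw [mul_comm]
  exact ContinuousLinearMap.opNorm_comp_le A P

theorem pb_poly (E F : Type) [NormedAddCommGroup E] [NormedSpace ℝ E] [FiniteDimensional ℝ E]
    [NormedAddCommGroup F] [NormedSpace ℝ F] (N j : ℕ) : ∃ C : ℝ, 1 ≤ C ∧
    ∀ (a : Jet N E F) (u : E), ‖u‖ ≤ 1 → Pb j (poly a) u (C * ‖a‖) := by
  obtain ⟨C, hC, h⟩ := pb_ball (contDiff_polyL (k := N) (V := E) (W := F)) 1 j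
  refine ⟨C, hC, fun a u hu => ?_⟩
  have := (h u hu).clm (ContinuousLinearMap.apply ℝ F a)
  simp only [ContinuousLinearMap.apply_apply, polyL_apply] at this
  refine this.le ?_
  rw [mul_comm]
  refine mul_le_mul_of_nonneg_left ?_ (by linarith)
  refine ContinuousLinearMap.opNorm_le_bound _ (norm_nonneg _) fun A => ?_
  rw [mul_comm]
  exact A.le_opNorm a

/-- the cocycle on the linear maps with values in the fibre -/
def BL (J : Type) [NormedAddCommGroup J] [NormedSpace ℝ J] (B : ℕ → E → F →L[ℝ] F) (k : ℕ)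
    (u : E) : (J →L[ℝ] F) →L[ℝ] J →L[ℝ] F := ContinuousLinearMap.compL ℝ J F F (B k u)

theorem norm_BL (k : ℕ) (u : E) : ‖BL J B k u‖ ≤ ‖B k u‖ :=
  ContinuousLinearMap.opNorm_le_bound _ (norm_nonneg _) fun A =>
    ContinuousLinearMap.opNorm_comp_le (B k u) A

theorem pb_bil {E F G H : Type} [NormedAddCommGroup E] [NormedSpace ℝ E] [NormedAddCommGroup F]
    [NormedSpace ℝ F] [NormedAddCommGroup G] [NormedSpace ℝ G] [NormedAddCommGroup H]
    [NormedSpace ℝ H] {j : ℕ} {f : E → F} {x : E} {K : ℝ} (B : F →L[ℝ] G →L[ℝ] H) (hB : ‖B‖ ≤ 1)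
    (h : Pb j f x K) : Pb j (fun y => B (f y)) x K := h.clm' B hB

theorem pb_BL {j k : ℕ} {u : E} {K : ℝ} (h : Pb j (B k) u K) : Pb j (BL J B k) u K :=
  pb_bil (ContinuousLinearMap.compL ℝ J F F) (ContinuousLinearMap.norm_compL_le ℝ J F F) h

theorem dat_BL (h : Dat ρ q M c θ B) : Dat ρ q M c θ (BL J B) :=
  ⟨h.zero, h.sm, h.der, h.bθ, fun n u hu => (norm_BL n u).trans (h.b0 n u hu),
    fun n j u hu => pb_BL (h.bB n j u hu)⟩

theorem it_BL (s : E → J →L[ℝ] F) (f : J) (n : ℕ) : ∀ (k : ℕ) (u : E),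
    It θ (BL J B) k n s u f = It θ B k n (fun u => s u f) u := by
  induction n with
  | zero => intro k u; rfl
  | succ n ih =>
    intro k u
    show B k u (It θ (BL J B) (k + 1) n s (θ k u) f) = B k u (It θ B (k + 1) n _ (θ k u))
    rw [ih]

theorem van_of_app {N : ℕ} {g : E → J →L[ℝ] F} {x : E} (hg : ContDiffAt ℝ ∞ g x)
    (h : ∀ f, Van N (fun u => g u f) x) : Van N g x := fun i hi => by
  ext v f
  have h1 := (ContinuousLinearMap.apply ℝ F f).iteratedFDeriv_comp_left (cda hg i) (i := i) le_rfl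
  have h2 : iteratedFDeriv ℝ i (ContinuousLinearMap.apply ℝ F f ∘ g) x = 0 := h f i hi
  rw [h2] at h1
  have h3 := congrArg (fun m => m v) h1
  simpa using h3.symm

theorem tend0 {G : ℕ → E → F} {g : E → F} {u : E}
    (h : Tendsto (fun k => iteratedFDeriv ℝ 0 (G k) u) atTop (𝓝 (iteratedFDeriv ℝ 0 g u))) :
    Tendsto (fun k => G k u) atTop (𝓝 (g u)) := by
  have := ((continuous_eval_const (fun _ : Fin 0 => (0 : E))).tendsto _).comp h
  simpa [Function.comp_def] using this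

theorem tend0' {G : ℕ → E → J →L[ℝ] F} {g : E → J →L[ℝ] F} {u : E}
    (h : Tendsto (fun k => iteratedFDeriv ℝ 0 (G k) u) atTop (𝓝 (iteratedFDeriv ℝ 0 g u)))
    (f : J) : Tendsto (fun k => G k u f) atTop (𝓝 (g u f)) := by
  have := ((continuous_eval_const (fun _ : Fin 0 => (0 : E))).tendsto _).comp h
  have h2 : Tendsto (fun k => G k u) atTop (𝓝 (g u)) := by simpa [Function.comp_def] using this
  exact ((continuous_eval_const f).tendsto _).comp h2

/-- **Approximation by a finite dimensional family.** -/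
theorem fd (h : Dat ρ q M c θ B) (hρ : 0 < ρ) (hρ1 : ρ ≤ 1) (hq : 0 < q) (hq1 : q < 1)
    (hM : 0 < M) {N : ℕ} {g γ : ℝ} (hg : 0 < g) (hγ : 0 < γ) (h1 : M * q ^ (N + 1) * g < 1)
    (h2 : M * q ^ (N + 1) ≤ γ) (P : ℕ → Jet N E F →L[ℝ] Jet N E F)
    (hP1 : ∀ k b, jet N (poly (P k b)) 0 = P k b)
    (hP2 : ∀ k b, jet N (Tr θ B k (poly (P (k + 1) b))) 0 = P k b)
    (hP3 : ∃ a, ∀ k, ‖P k‖ ≤ a * g ^ k) (j : ℕ) :
    ∃ (Λ : E → Jet N E F →L[ℝ] F) (C : ℝ), 0 ≤ C ∧ (∀ u ∈ ball (0 : E) ρ, ContDiffAt ℝ ∞ Λ u) ∧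
      ∀ (m : ℕ) (s : E → F) (f : Jet N E F) (A : ℝ), Bd ρ (j + (N + 1)) s A →
        (∀ k, ‖P (m + k) f‖ ≤ A * g ^ k) →
        (∀ k < m, ‖jet N (It θ B k (m - k) s) 0 - P k f‖ ≤ A * γ ^ (m - k)) →
        Bd ρ j (fun u => It θ B 0 m s u - Λ u f) (C * (m + 1) * γ ^ m * A) := by
  obtain ⟨a, ha⟩ := hP3
  have h0 : (0 : E) ∈ ball (0 : E) ρ := mem_ball_self hρ
  have hb1 : ∀ u ∈ ball (0 : E) ρ, ‖u‖ ≤ 1 := fun u hu =>
    (mem_ball_zero_iff.1 hu).le.trans hρ1
  have ha0 : 0 ≤ a := by simpa using (norm_nonneg _).trans (ha 0)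
  set p : Jet N E F → ℕ → E → F := fun f k => poly (P k f) with hp
  set p' : ℕ → E → Jet N E F →L[ℝ] F := fun k u => polyL N E F u ∘L P k with hp'
  have hTr : ∀ f k, ContDiffAt ℝ ∞ (Tr θ B k (p f (k + 1))) 0 := fun f k =>
    (h.van hρ (N := 0) (contDiff_poly _).contDiffAt van_zero k 1).1
  have hv : ∀ f k, Van (N + 1) (fun u => Tr θ B k (p f (k + 1)) u - p f k u) 0 := fun f k => by
    rw [van_iff_jet, jet_sub (cda (hTr f k) N) (cda (contDiff_poly _).contDiffAt N), hP2, hP1,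
      sub_self]
  have hb : ∀ f i, ∃ a, ∀ k, Bd ρ i (p f k) (a * g ^ k) := fun f i => by
    obtain ⟨C, hC, h3⟩ := pb_poly E F N i
    refine ⟨C * (a * ‖f‖), fun k u hu => (h3 _ u (hb1 u hu)).le ?_⟩
    have := ((P k).le_opNorm f).trans (mul_le_mul_of_nonneg_right (ha k) (norm_nonneg f))
    calc C * ‖P k f‖ ≤ C * (a * g ^ k * ‖f‖) := mul_le_mul_of_nonneg_left this (by linarith)
      _ = _ := by ring
  have hsm' : ∀ k, ContDiff ℝ ∞ (p' k) := fun k => contDiff_polyL.clm_comp contDiff_const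
  have hv' : ∀ k, Van (N + 1) (fun u => Tr θ (BL _ B) k (p' (k + 1)) u - p' k u) 0 := fun k => by
    refine van_of_app ((((dat_BL h).van hρ (N := 0) (hsm' (k + 1)).contDiffAt van_zero k 1).1).sub
      (hsm' k).contDiffAt) fun f => ?_
    refine (hv f k).congr (Eventually.of_forall fun u => ?_)
    simp [Tr, BL, hp, hp', polyL_apply]
  have hb' : ∀ i, ∃ a, ∀ k, Bd ρ i (p' k) (a * g ^ k) := fun i => by
    obtain ⟨C, hC, h3⟩ := pb_polyL E F N i
    refine ⟨C * a, fun k u hu => (h3 _ _ u (hb1 u hu)).le ?_⟩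
    rw [mul_assoc]
    exact mul_le_mul_of_nonneg_left (ha k) (by linarith)
  have sp' := lift_spec (dat_BL h) hρ hq hq1 hM hg h1 hv' hb' 0
  have sp := fun f => lift_spec h hρ hq hq1 hM hg h1 (hv f) (hb f)
  have happ : ∀ f, ∀ u ∈ ball (0 : E) ρ, lift θ (BL _ B) p' 0 u f = lift θ B (p f) 0 u := by
    intro f u hu
    refine tendsto_nhds_unique (tend0' (sp'.2.2.2 0 u hu) f) ?_
    refine (tend0 ((sp f 0).2.2.2 0 u hu)).congr fun k => ?_
    rw [it_BL]
    simp only [hp, hp', ContinuousLinearMap.comp_apply, polyL_apply]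
  have hit : ∀ f k n, ∀ u ∈ ball (0 : E) ρ,
      lift θ B (p f) k u = It θ B k n (lift θ B (p f) (k + n)) u := by
    intro f k n
    induction n with
    | zero => intro u _; rfl
    | succ n ih =>
      intro u hu
      rw [ih u hu, It_succ']
      exact h.it_congr hq1.le (sp f (k + n)).2.1 k n u hu
  obtain ⟨C₁, hC₁, hl⟩ := lift_bd (E := E) (F := F) hρ hq hq1 hM c hg h1 (j + (N + 1))
  obtain ⟨C₂, hC₂, hf⟩ := fast (E := E) (F := F) hρ hq hq1 hM c h2 j
  obtain ⟨C₃, hC₃, h3⟩ := pb_poly E F N (j + (N + 1) + (N + 1))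
  refine ⟨lift θ (BL _ B) p' 0, C₂ * ((1 + C₁ * C₃) * (1 + C₃)), by positivity, sp'.1,
    fun m s f A hs hA hA' => ?_⟩
  have hA0 : 0 ≤ A := (hs 0 h0).nonneg
  have hlm : Bd ρ (j + (N + 1)) (lift θ B (p f) m) (C₁ * (C₃ * A)) := by
    refine hl θ B h (p f) (hv f) (hb f) m _ fun k u hu => (h3 _ u (hb1 u hu)).le ?_
    rw [mul_assoc]
    exact mul_le_mul_of_nonneg_left (hA k) (by linarith)
  set s' : E → F := fun u => s u - lift θ B (p f) m u with hs'
  have hsb : Bd ρ (j + (N + 1)) s' ((1 + C₁ * C₃) * A) := fun u hu =>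
    ((hs u hu).sub (hlm u hu)).le (le_of_eq (by ring))
  have hs0 : ∀ k, ContDiffAt ℝ ∞ (It θ B k (m - k) s') 0 := fun k =>
    (h.van hρ (N := 0) (hsb 0 h0).sm van_zero _ _).1
  have hjet : ∀ k ≤ m, ‖jet N (It θ B k (m - k) s') 0‖ ≤ (1 + C₁ * C₃) * A * γ ^ (m - k) := by
    intro k hk
    rcases hk.eq_or_lt with rfl | hk
    · rw [Nat.sub_self, pow_zero, mul_one]
      exact norm_jet_le (hsb 0 h0).nonneg fun i hi => (hsb 0 h0).bd i (by omega)
    · have e1 : It θ B k (m - k) (lift θ B (p f) m) =ᶠ[𝓝 0] lift θ B (p f) k := by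
        refine eventually_of_mem (isOpen_ball.mem_nhds h0) fun u hu => ?_
        rw [hit f k (m - k) u hu, Nat.add_sub_cancel' hk.le]
      have e2 : jet N (lift θ B (p f) k) 0 = P k f := by
        have := van_iff_jet.1 (sp f k).2.2.1
        rw [jet_sub (cda ((sp f k).1 0 h0) N) (cda (contDiff_poly _).contDiffAt N), hP1] at this
        exact sub_eq_zero.1 this
      rw [hs', It_sub, jet_sub (cda (h.van hρ (N := 0) (hs 0 h0).sm van_zero _ _).1 N)
        (cda (h.van hρ (N := 0) (hlm 0 h0).sm van_zero _ _).1 N), jet_congr e1, e2]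
      refine (hA' k hk).trans (mul_le_mul_of_nonneg_right ?_ (by positivity))
      have : 0 ≤ C₁ * C₃ * A := by positivity
      linarith
  have key := hf θ B h m s' (fun k => poly (jet N (It θ B k (m - k) s') 0)) _
    (C₃ * ((1 + C₁ * C₃) * A)) hsb (fun k _ => by
      rw [van_iff_jet, jet_sub (cda (hs0 k) N) (cda (contDiff_poly _).contDiffAt N),
        jet_poly_jet (cda (hs0 k) N), sub_self])
    (fun k hk u hu => (h3 _ u (hb1 u hu)).mono (by omega) (by
      rw [mul_assoc]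
      exact mul_le_mul_of_nonneg_left (hjet k hk) (by linarith)))
  refine bd_congr (bd_le key le_rfl (le_of_eq (by ring))) fun u hu => ?_
  rw [hs', It_sub, happ f u hu, hit f 0 m u hu, zero_add]

end Vale.Agent.P207Z.Apx
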