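import Vale.Agent.P207Z.Char.Apx.Fd

/-!
# P207: families of maps with exponentially growing derivatives (block CH-C3, part 3)
-/

set_option linter.all false

open Set Filter Topology Metric
open scoped ContDiff

noncomputable section

namespace Vale.Agent.P207Z.Apx

open Lift

variable {E F G H : Type} [NormedAddCommGroup E] [NormedSpace ℝ E] [NormedAddCommGroup F]
  [NormedSpace ℝ F] [NormedAddCommGroup G] [NormedSpace ℝ G] [NormedAddCommGroup H]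
  [NormedSpace ℝ H] {ι : Type} {nn : ι → ℕ} {j : ℕ} {f f' : ι → E → F} {g : ι → E → G}
  {x : ι → E}

/-- interpolation -/
theorem lk2 (p : ℕ) {ρ : ℝ} (hρ : 0 < ρ) (hρ1 : ρ ≤ 1) : ∃ C : ℝ, 1 ≤ C ∧
    ∀ {E F : Type} [NormedAddCommGroup E] [NormedSpace ℝ E] [NormedAddCommGroup F]
      [NormedSpace ℝ F] (f : E → F) (w : E) (A δ : ℝ), 0 < δ → δ ≤ 1 →
      (∀ u ∈ closedBall w ρ, Pb (2 * (p + 1)) f u A ∧ ‖f u‖ ≤ A * δ ^ 2) →
      Pb p f w (C * A * δ) := by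
  obtain ⟨C, hC, h⟩ := An.lk_ball.{0} (2 * (p + 1))
  have hρp : 0 < ρ ^ (p + 1) := by positivity
  have hρp1 : ρ ^ (p + 1) ≤ 1 := pow_le_one₀ hρ.le hρ1
  refine ⟨2 * C / ρ ^ (p + 1), ?_, fun {E F} _ _ _ _ f w A δ hδ hδ1 hf => ?_⟩
  · rw [le_div_iff₀ hρp]; linarith
  set e := δ ^ (((p + 1 : ℕ) : ℝ)⁻¹) with he
  have he0 : 0 < e := Real.rpow_pos_of_pos hδ _
  have he1 : e ≤ 1 := Real.rpow_le_one hδ.le hδ1 (by positivity)
  have hep : e ^ (p + 1) = δ := Real.rpow_inv_natCast_pow hδ.le (by omega)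
  have hr : ρ * e ≤ ρ := mul_le_of_le_one_right hρ.le he1
  have hsub := closedBall_subset_closedBall (x := w) hr
  have hw := (hf w (mem_closedBall_self hρ.le)).1
  refine ⟨hw.sm, fun i hi => ?_⟩
  have h1 := h f w (ρ * e) (A * δ ^ 2) A (by positivity)
    (fun y hy => cda (hf y (hsub hy)).1.sm _) (fun y hy => (hf y (hsub hy)).2)
    (fun y hy => (hf y (hsub hy)).1.bd _ le_rfl) i (by omega)
  have h2 : (ρ * e) ^ (p + 1) ≤ (ρ * e) ^ i :=
    pow_le_pow_of_le_one (by positivity) (hr.trans hρ1) (by omega)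
  have h3 : (ρ * e) ^ (2 * (p + 1)) ≤ δ ^ 2 := by
    rw [mul_comm 2, pow_mul, mul_pow, hep]
    exact pow_le_pow_left₀ (by positivity) (mul_le_of_le_one_left hδ.le hρp1) 2
  rw [mul_pow, hep] at h2
  have hA := hw.nonneg
  have h4 : ‖iteratedFDeriv ℝ i f w‖ * (ρ ^ (p + 1) * δ) ≤ C * (A * δ ^ 2 + A * δ ^ 2) :=
    (mul_le_mul_of_nonneg_left h2 (norm_nonneg _)).trans (h1.trans (by gcongr))
  rw [div_mul_eq_mul_div, div_mul_eq_mul_div, le_div_iff₀ hρp]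
  refine le_of_mul_le_mul_right ?_ hδ
  nlinarith

theorem ev_pow (c : ℝ) {b : ℝ} (hb : 0 ≤ b) :
    ∀ᶠ Q : ℝ in atTop, ∀ n : ℕ, c * b ^ (n + 1) ≤ Q ^ (n + 1) := by
  filter_upwards [eventually_ge_atTop (max 1 c * b)] with Q hQ n
  have h1 : (1 : ℝ) ≤ max 1 c := le_max_left _ _
  calc c * b ^ (n + 1) ≤ max 1 c ^ (n + 1) * b ^ (n + 1) :=
        mul_le_mul_of_nonneg_right ((le_max_right _ _).trans (le_self_pow₀ h1 (by omega)))
          (by positivity)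
    _ ≤ _ := by rw [← mul_pow]; exact pow_le_pow_left₀ (by positivity) hQ _

/-- the derivatives grow at most exponentially -/
def Gr (nn : ι → ℕ) (j : ℕ) (f : ι → E → F) (x : ι → E) : Prop :=
  ∀ᶠ Q : ℝ in atTop, ∀ i, Pb j (f i) (x i) (Q ^ (nn i + 1))

theorem gr_of {c b : ℝ} (hb : 0 ≤ b) (h : ∀ i, Pb j (f i) (x i) (c * b ^ (nn i + 1))) :
    Gr nn j f x := (ev_pow c hb).mono fun _ hQ i => (h i).le (hQ _)

theorem Gr.ex (h : Gr nn j f x) : ∃ Q : ℝ, 1 ≤ Q ∧ ∀ i, Pb j (f i) (x i) (Q ^ (nn i + 1)) :=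
  ((eventually_ge_atTop 1).and h).exists

theorem gr_exp (C : ℕ → ℝ) {b : ℝ} (hs : ∀ i, ContDiffAt ℝ ∞ (f i) (x i))
    (h : ∀ k ≤ j, ∀ i, ‖iteratedFDeriv ℝ k (f i) (x i)‖ ≤ C k * Real.exp (b * (nn i + 1))) :
    Gr nn j f x := by
  refine gr_of (c := ∑ k ∈ Finset.range (j + 1), |C k|) (Real.exp_pos b).le fun i =>
    ⟨hs i, fun k hk => (h k hk i).trans ?_⟩
  rw [← Real.exp_nat_mul]
  refine mul_le_mul ((le_abs_self _).trans (Finset.single_le_sum (f := fun k => |C k|)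
    (fun _ _ => abs_nonneg _) (Finset.mem_range.2 (by omega)))) (le_of_eq ?_) (by positivity)
    (by positivity)
  congr 1
  push_cast
  ring

theorem gr_bd (hs : ∀ i, ContDiffAt ℝ ∞ (f i) (x i))
    (h : ∀ k, ∃ C, ∀ i, ‖iteratedFDeriv ℝ k (f i) (x i)‖ ≤ C) : Gr nn j f x := by
  choose C hC using h
  exact gr_exp C (b := 0) hs fun k _ i => by simpa using hC k i

theorem gr_ball [FiniteDimensional ℝ E] {φ : E → F} (hφ : ContDiff ℝ ∞ φ) {R : ℝ}
    (h : ∀ i, ‖x i‖ ≤ R) : Gr nn j (fun _ => φ) x := by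
  obtain ⟨C, -, hC⟩ := pb_ball hφ R j
  exact gr_of (c := C) zero_le_one fun i => by simpa using hC _ (h i)

theorem gr_const {c : ι → F} {R : ℝ} (h : ∀ i, ‖c i‖ ≤ R) : Gr nn j (fun i _ => c i) x :=
  gr_of (c := R) zero_le_one fun i => pb_const _ (by simpa using h i)

theorem Gr.congr (h : Gr nn j f x) (e : ∀ i, f' i =ᶠ[𝓝 (x i)] f i) : Gr nn j f' x :=
  h.mono fun _ hQ i => (hQ i).congr (e i)

theorem Gr.add (h : Gr nn j f x) (h' : Gr nn j f' x) : Gr nn j (fun i y => f i y + f' i y) x := by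
  obtain ⟨Q, hQ, h1⟩ := ((eventually_ge_atTop 0).and (h.and h')).exists
  exact gr_of (c := 2) hQ fun i => ((h1.1 i).add (h1.2 i)).le (le_of_eq (by ring))

theorem Gr.sub (h : Gr nn j f x) (h' : Gr nn j f' x) : Gr nn j (fun i y => f i y - f' i y) x := by
  obtain ⟨Q, hQ, h1⟩ := ((eventually_ge_atTop 0).and (h.and h')).exists
  exact gr_of (c := 2) hQ fun i => ((h1.1 i).sub (h1.2 i)).le (le_of_eq (by ring))

theorem Gr.clm (L : F →L[ℝ] G) (h : Gr nn j f x) : Gr nn j (fun i y => L (f i y)) x := by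
  obtain ⟨Q, hQ, h1⟩ := h.ex
  exact gr_of (by linarith) fun i => (h1 i).clm L

theorem Gr.bil (B : F →L[ℝ] G →L[ℝ] H) (h : Gr nn j f x) : Gr nn j (fun i y => B (f i y)) x :=
  h.clm B

theorem Gr.bilin (B : F →L[ℝ] G →L[ℝ] H) (h : Gr nn j f x) (h' : Gr nn j g x) :
    Gr nn j (fun i y => B (f i y) (g i y)) x := by
  obtain ⟨Q, hQ, h1⟩ := ((eventually_ge_atTop 0).and (h.and h')).exists
  exact gr_of (c := ‖B‖ * 2 ^ j) (b := Q * Q) (by positivity) fun i =>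
    ((h1.1 i).bilin B (h1.2 i)).le (le_of_eq (by rw [mul_pow]; ring))

theorem Gr.app {A : ι → E → F →L[ℝ] G} (h : Gr nn j A x) (h' : Gr nn j f x) :
    Gr nn j (fun i y => A i y (f i y)) x :=
  h.bilin (ContinuousLinearMap.id ℝ (F →L[ℝ] G)) h'

theorem Gr.compL {A : ι → E → G →L[ℝ] H} {A' : ι → E → F →L[ℝ] G} (h : Gr nn j A x)
    (h' : Gr nn j A' x) : Gr nn j (fun i y => A i y ∘L A' i y) x :=
  h.bilin (ContinuousLinearMap.compL ℝ F G H) h'

theorem Gr.comp {φ : ι → F → G} (h : Gr nn j φ fun i => f i (x i)) (h' : Gr nn j f x) :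
    Gr nn j (fun i y => φ i (f i y)) x := by
  obtain ⟨Q, hQ, h1⟩ := ((eventually_ge_atTop 1).and (h.and h')).exists
  refine gr_of (c := j.factorial) (b := Q * Q ^ j) (by positivity) fun i =>
    ((h1.1 i).comp' (h1.2 i)).le (le_of_eq ?_)
  rw [max_eq_right (one_le_pow₀ hQ), mul_pow, ← pow_mul, ← pow_mul, mul_comm j]
  ring

theorem Gr.ev (h : Gr nn j f x) :
    Gr nn j (fun i y => (ContinuousLinearMap.apply ℝ G (f i y) : (F →L[ℝ] G) →L[ℝ] G)) x :=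
  Gr.bil (G := F →L[ℝ] G) (H := G) (ContinuousLinearMap.apply ℝ G) h

theorem Gr.evo {V : Type} [NormedAddCommGroup V] [NormedSpace ℝ V] [FiniteDimensional ℝ V]
    (iS : E →L[ℝ] V) (K : ℕ) {z : ι → E → V} {R : ℝ}
    (hz : Gr nn j (fun i u => z i u - iS u) x) (hb : ∀ i, ‖z i (x i) - iS (x i)‖ ≤ R)
    (h : Gr nn j f x) : Gr nn j (fun i => evo iS K (z i) (f i)) x := by
  have h1 : Gr nn j (fun i u => polyL K V (Du F) (z i u - iS u)) x :=
    Gr.comp (φ := fun _ => polyL K V (Du F))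
      (gr_ball (contDiff_polyL (k := K) (V := V) (W := Du F)) hb) hz
  exact Gr.compL (F := Jet K V (Du F)) (G := Du F) (H := ℝ) (h.ev (G := ℝ)) h1

end Vale.Agent.P207Z.Apx
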