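import Vale.Agent.P207Z.Char.Apx.Coc
import Vale.Agent.P207Z.Char.Apx.Gr

/-!
# P207: graphs of the stable leaves, pulled back along the orbit (block CH-C3, part 4)
-/

set_option linter.all false

open Set Filter Topology Metric MeasureTheory Asymptotics
open scoped ContDiff

noncomputable section

namespace Vale.Agent.P207Z.Apx

open Vale.Agent.P207.N3 (JC)
open Lift

theorem jc_bil {Z E F G H : Type} [TopologicalSpace Z] [NormedAddCommGroup E] [NormedSpace ℝ E]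
    [NormedAddCommGroup F] [NormedSpace ℝ F] [NormedAddCommGroup G] [NormedSpace ℝ G]
    [NormedAddCommGroup H] [NormedSpace ℝ H] {f : Z → E → F} {T : Set (Z × E)}
    (B : F →L[ℝ] G →L[ℝ] H) (h : JC f T) : JC (fun z u => B (f z u)) T := h.clm B

/-- the transposition -/
def tr (J : Type) [NormedAddCommGroup J] [NormedSpace ℝ J] :
    (J →L[ℝ] J) →L[ℝ] Du J →L[ℝ] Du J := (ContinuousLinearMap.compL ℝ J J ℝ).flip

theorem tr_apply {J : Type} [NormedAddCommGroup J] [NormedSpace ℝ J] (A : J →L[ℝ] J) (l : Du J) :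
    tr J A l = l ∘L A := rfl

variable {Γ X B E V : Type} [Group Γ] [Countable Γ] [MetricSpace X] [ProperSpace X]
  [MulAction Γ X] [IsIsometricSMul Γ X] [MeasurableSpace X] [BorelSpace X]
  [TopologicalSpace B] [CompactSpace B] [T2Space B] [SecondCountableTopology B] [MulAction Γ B]
  [ContinuousConstSMul Γ B] [MeasurableSpace B] [BorelSpace B]
  [NormedAddCommGroup E] [InnerProductSpace ℝ E] [FiniteDimensional ℝ E]
  [NormedAddCommGroup V] [NormedSpace ℝ V] [FiniteDimensional ℝ V]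
  {F : Type} [NormedAddCommGroup F] [NormedSpace ℝ F] [FiniteDimensional ℝ F]
  {S : Sys Γ X B E V} {𝔉 : Bun S F} {ι : Type} {nn : ι → ℕ} {j : ℕ}

/-- the pull back of the differential operators -/
def jf (𝔉 : Bun S F) (K : ℕ) (p : X × X) (q : V) :
    Du (Jet K V (Du F)) →L[ℝ] Du (Jet K V (Du F)) := tr _ (𝔉.JT K p.2 p.1 (S.τ p.1 p.2 q))

theorem cy_jf (𝔉 : Bun S F) (K : ℕ) : Cy S (jf 𝔉 K) where
  jc := jc_bil (tr _) (𝔉.jc_JT' K)
  smul g x y q h := by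
    simp only [jf]
    rw [Sys.τ_smul g h, 𝔉.JT_smul K g (Sys.τ_dom h)]
  coc x y z q h h' := by
    have h1 := 𝔉.JT_coc K (Sys.τ_dom (Sys.τ_dom' h h')) (by
      rw [Sys.τ_trans h h']; exact Sys.τ_dom h' : S.τ y z (S.τ x y q) ∈ S.dom z x)
    rw [Sys.τ_τ (Sys.τ_dom' h h')] at h1
    ext1 l
    simp only [jf, ContinuousLinearMap.mul_apply, tr_apply]
    rw [ContinuousLinearMap.comp_assoc, ← ContinuousLinearMap.mul_def, h1, Sys.τ_trans h h']

section Growth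

variable {x y : ι → X} {t : ι → ℝ} {q : ι → V} {T : ℝ}

theorem gr_τ (hs : ∀ i, S.Stay (1 / 2) (x i) (t i) (q i)) (e : ∀ i, S.φ (t i) (x i) = y i)
    (ht : ∀ i, |t i| ≤ T * (nn i + 1)) : Gr nn j (fun i => S.τ (x i) (y i)) q := by
  obtain ⟨b, hb, h⟩ := S.stay_τ (by norm_num : (1 / 2 : ℝ) < 1)
  choose! C hC h using h
  obtain rfl : (fun i => S.φ (t i) (x i)) = y := funext e
  have hT : ∀ i, 0 ≤ T * (nn i + 1) := fun i => (abs_nonneg _).trans (ht i)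
  refine gr_exp (fun k => if k = 0 then 1 else C k) (b := b * j * T)
    (fun i => Sys.contDiffAt_τ (hs i _ right_mem_uIcc).1) fun k hk i => ?_
  have hj : (k : ℝ) ≤ j := by exact_mod_cast hk
  split_ifs with h0
  · subst h0
    rw [norm_iteratedFDeriv_zero, one_mul, mul_assoc]
    exact (hs i _ right_mem_uIcc).2.trans ((by norm_num : (1 / 2 : ℝ) ≤ 1).trans
      (Real.one_le_exp (mul_nonneg (by positivity) (hT i))))
  · refine (h k (by omega) _ _ _ (hs i)).trans (mul_le_mul_of_nonneg_left (Real.exp_le_exp.2 ?_)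
      (hC k (by omega)))
    rw [mul_assoc (b * j)]
    exact mul_le_mul (by gcongr) (ht i) (abs_nonneg _) (by positivity)

theorem gr_A (hs : ∀ i, S.Stay (1 / 2) (x i) (t i) (q i)) (e : ∀ i, S.φ (t i) (x i) = y i)
    (ht : ∀ i, |t i| ≤ T * (nn i + 1)) : Gr nn j (fun i => 𝔉.A (x i) (y i)) q := by
  obtain ⟨b, hb, h⟩ := S.stay_A 𝔉 (by norm_num : (1 / 2 : ℝ) < 1)
  choose C hC h using h
  obtain rfl : (fun i => S.φ (t i) (x i)) = y := funext e
  refine gr_exp C (b := b * (j + 1) * T)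
    (fun i => 𝔉.contDiffAt (hs i _ right_mem_uIcc).1) fun k hk i => ?_
  have hj : (k : ℝ) ≤ j := by exact_mod_cast hk
  refine (h k _ _ _ (hs i)).trans (mul_le_mul_of_nonneg_left (Real.exp_le_exp.2 ?_) (hC k))
  rw [mul_assoc (b * (j + 1))]
  exact mul_le_mul (by gcongr) (ht i) (abs_nonneg _) (by positivity)

end Growth

variable (s : Sec 𝔉) (G : S.GrS (1 / 2)) (St : S.Step) (K : ℕ)

/-- the graph of the leaf `η` in the chart of `y` -/
def Zg (y : X) (η : B) (w : E) : V := S.iS w + S.iU (G.g y η w)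

/-- the graph read in the chart of `x` -/
def ze (x y : X) (η : B) (w : E) : V := S.τ y x (Zg G y η (th S x y w))

/-- the operators of evaluation on the graph -/
def Lm (y : X) (η : B) : E → Du (Jet K V (Du F)) :=
  evo S.iS K (Zg G y η) fun w => s.e y (Zg G y η w)

/-- the Taylor polynomials at `iS u` in the chart of `x`, read in the chart of `y` -/
def LL (𝔉 : Bun S F) (K : ℕ) (x y : X) (u : E) (v : V) : Jet K V (Du F) →L[ℝ] Du F :=
  tr F (𝔉.A y x v) ∘L polyL K V (Du F) (S.τ y x v - S.iS u)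

/-- the section is smooth along the graphs -/
def SG : Prop := (∀ x η, (∃ z ∈ ball (0 : V) G.r, (S.c x z).2 = η) →
    ContDiffOn ℝ ∞ (fun w => s.e x (Zg G x η w)) (ball 0 (2 * G.r))) ∧
  ∀ k : ℕ, ∃ C : ℝ, ∀ x η, (∃ z ∈ ball (0 : V) G.r, (S.c x z).2 = η) →
    ∀ w ∈ ball (0 : E) (2 * G.r), ‖iteratedFDeriv ℝ k (fun w => s.e x (Zg G x η w)) w‖ ≤ C

section Graph

variable {s G} {y : ι → X} {η : ι → B} {w : ι → E}
  (hη : ∀ i, ∃ z ∈ ball (0 : V) G.r, (S.c (y i) z).2 = η i) (hw : ∀ i, w i ∈ ball (0 : E) (2 * G.r))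
include hη hw

theorem gr_Z : Gr nn j (fun i => Zg G (y i) (η i)) w := by
  have h1 : Gr nn j (fun i => G.g (y i) (η i)) w :=
    gr_bd (fun i => (G.smooth _ _ (hη i)).contDiffAt (isOpen_ball.mem_nhds (hw i))) fun k =>
      (G.bd k).imp fun C hC i => hC _ _ (hη i) _ (hw i)
  exact (gr_ball S.iS.contDiff fun i => (mem_ball_zero_iff.1 (hw i)).le).add (h1.clm S.iU)

theorem gr_e (hG : SG s G) : Gr nn j (fun i u => s.e (y i) (Zg G (y i) (η i) u)) w :=
  gr_bd (fun i => (hG.1 _ _ (hη i)).contDiffAt (isOpen_ball.mem_nhds (hw i))) fun k =>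
    (hG.2 k).imp fun C hC i => hC _ _ (hη i) _ (hw i)

theorem gr_Lm (hG : SG s G) : Gr nn j (fun i => Lm s G K (y i) (η i)) w :=
  Gr.evo S.iS K ((gr_Z hη hw).sub
    (gr_ball S.iS.contDiff fun i => (mem_ball_zero_iff.1 (hw i)).le)) (R := 2 * G.r)
    (fun i => by
      rw [Zg, add_sub_cancel_left, S.norm_iU]
      exact (G.on _ _ (hη i) _ (hw i)).1.le) (gr_e hη hw hG)

end Graph

variable {s G St}

theorem bd_Lm (hG : SG s G) (j : ℕ) : ∃ C : ℝ, 1 ≤ C ∧ ∀ y η,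
    (∃ z ∈ ball (0 : V) G.r, (S.c y z).2 = η) → Bd (2 * G.r) j (Lm s G K y η) C := by
  obtain ⟨Q, hQ, h⟩ := (gr_Lm K (ι := {p : X × B × E // (∃ z ∈ ball (0 : V) G.r,
    (S.c p.1 z).2 = p.2.1) ∧ p.2.2 ∈ ball (0 : E) (2 * G.r)}) (nn := fun _ => 0) (j := j)
    (fun i => i.2.1) (fun i => i.2.2) hG).ex
  exact ⟨Q, hQ, fun y η hη u hu => by simpa using h ⟨(y, η, u), hη, hu⟩⟩

theorem bd_sub {E F : Type} [NormedAddCommGroup E] [NormedSpace ℝ E] [NormedAddCommGroup F]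
    [NormedSpace ℝ F] {ρ ρ' K : ℝ} {s : E → F} (h : Bd ρ j s K) (hρ : ρ' ≤ ρ) : Bd ρ' j s K :=
  fun u hu => h u (ball_subset_ball hρ hu)

theorem th_mem (St : S.Step) (x : X) (m : ℕ) {w : E} (hw : w ∈ ball (0 : E) St.ρ) :
    th S x (St.o x m) w ∈ ball (0 : E) St.ρ := by
  have := St.maps (x := x) (k := 0) (n := m) hw
  rwa [St.o_zero, zero_add] at this

theorem back_eq (St : S.Step) (x : X) (m : ℕ) : S.φ (-(m * St.T)) (St.o x m) = x := by
  rw [Sys.Step.o, ← S.φ_add, neg_add_cancel, S.φ_zero]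

theorem stay_o (St : S.Step) (x : X) (m : ℕ) {w : E} (hw : w ∈ ball (0 : E) St.ρ) :
    S.Stay (1 / 4) x (m * St.T) (S.iS w) :=
  (St.stay x _ (mul_nonneg (Nat.cast_nonneg m) (by linarith [St.T_pos])) w hw).1

theorem dom_o (St : S.Step) (x : X) (m : ℕ) {w : E} (hw : w ∈ ball (0 : E) St.ρ) :
    S.iS w ∈ S.dom x (St.o x m) := (stay_o St x m hw _ right_mem_uIcc).1

theorem dom_back {x : X} {m : ℕ} {v : V} {a : ℝ} (h : S.Stay a (St.o x m) (-(m * St.T)) v) :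
    v ∈ S.dom (St.o x m) x ∧ ‖S.τ (St.o x m) x v‖ ≤ a := by
  have := h _ right_mem_uIcc
  rwa [back_eq] at this

/-- the cocycle of the operators along the orbit -/
def Bo (𝔉 : Bun S F) (K : ℕ) (St : S.Step) (x : X) (k : ℕ) (w : E) :
    Du (Jet K V (Du F)) →L[ℝ] Du (Jet K V (Du F)) := jf 𝔉 K (St.o x k, St.o x (k + 1)) (S.iS w)

/-- the indices of the families -/
structure Ix (G : S.GrS (1 / 2)) (St : S.Step) where
  x : X
  n : ℕ
  η : B
  u : E
  v : V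
  hu : u ∈ ball (0 : E) St.ρ
  hη : ∃ z ∈ ball (0 : V) G.r, (S.c (St.o x (n + 1)) z).2 = η
  hv : S.Stay (1 / 2) (St.o x (n + 1)) (-((n + 1 : ℕ) * St.T)) v
  hq : S.Stay (1 / 2) (St.o x (n + 1)) (-((n + 1 : ℕ) * St.T))
    (Zg G (St.o x (n + 1)) η (th S x (St.o x (n + 1)) u))

/-- the other end of the orbit -/
abbrev Ix.y (i : Ix G St) : X := St.o i.x (i.n + 1)

theorem gr_main (hG : SG s G) (hρ : St.ρ ≤ 2 * G.r) (j : ℕ) : ∀ᶠ Q : ℝ in atTop, ∀ i : Ix G St,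
    Pb j (fun u => ze G i.x i.y i.η u - S.iS u) i.u (Q ^ (i.n + 1)) ∧
    Pb j (fun u => s.e i.x (ze G i.x i.y i.η u)) i.u (Q ^ (i.n + 1)) ∧
    Pb j (fun u => evo S.iS K (ze G i.x i.y i.η) (fun u => s.e i.x (ze G i.x i.y i.η u)) u
      - It (St.θ i.x) (Bo 𝔉 K St i.x) 0 (i.n + 1) (Lm s G K i.y i.η) u) i.u (Q ^ (i.n + 1)) ∧
    Pb (K + 1) (LL 𝔉 K i.x i.y i.u) i.v (Q ^ (i.n + 1)) ∧
    ‖s.e i.y (Zg G i.y i.η (th S i.x i.y i.u))‖ ≤ Q ^ (i.n + 1) := by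
  have hT : 0 ≤ St.T := by linarith [St.T_pos]
  have ht : ∀ i : Ix G St, |((i.n + 1 : ℕ) : ℝ) * St.T| ≤ St.T * (i.n + 1) := fun i => by
    rw [abs_of_nonneg (by positivity), mul_comm]; push_cast; exact le_rfl
  have ht' : ∀ i : Ix G St, |-(((i.n + 1 : ℕ) : ℝ) * St.T)| ≤ St.T * (i.n + 1) := fun i => by
    rw [abs_neg]; exact ht i
  have hb : ∀ i : Ix G St, S.φ (-(((i.n + 1 : ℕ) : ℝ) * St.T)) i.y = i.x := fun i => back_eq St _ _
  have hu : ∀ i : Ix G St, ‖i.u‖ ≤ 1 / 4 := fun i =>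
    (mem_ball_zero_iff.1 i.hu).le.trans St.ρ_le
  have hw : ∀ i : Ix G St, th S i.x i.y i.u ∈ ball (0 : E) (2 * G.r) := fun i =>
    ball_subset_ball hρ (th_mem St _ _ i.hu)
  have hiS : ∀ j, Gr Ix.n j (fun _ : Ix G St => S.iS) Ix.u := fun j => gr_ball S.iS.contDiff hu
  have h1 : Gr Ix.n j (fun i : Ix G St => th S i.x i.y) Ix.u :=
    ((gr_τ (y := Ix.y) (fun i => (stay_o St i.x (i.n + 1) i.hu).mono (by norm_num) right_mem_uIcc)
      (fun i => rfl) ht).comp (hiS j)).clm S.pS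
  have h2 : Gr Ix.n j (fun (i : Ix G St) u => Zg G i.y i.η (th S i.x i.y u)) Ix.u :=
    (gr_Z Ix.hη hw).comp h1
  have h3 : Gr Ix.n j (fun (i : Ix G St) u => ze G i.x i.y i.η u - S.iS u) Ix.u :=
    (Gr.comp (f := fun (i : Ix G St) u => Zg G i.y i.η (th S i.x i.y u))
      (gr_τ Ix.hq hb ht') h2).sub (hiS j)
  have h4 : Gr Ix.n j (fun (i : Ix G St) u => s.e i.y (Zg G i.y i.η (th S i.x i.y u))) Ix.u :=
    (gr_e Ix.hη hw hG).comp h1
  have h5 : Gr Ix.n j (fun (i : Ix G St) u => s.e i.x (ze G i.x i.y i.η u)) Ix.u := by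
    refine ((Gr.comp (f := fun (i : Ix G St) u => Zg G i.y i.η (th S i.x i.y u))
      (gr_A (𝔉 := 𝔉) Ix.hq hb ht') h2).app h4).congr fun i => ?_
    obtain ⟨Q, -, hQ⟩ := h2.ex
    filter_upwards [(hQ i).sm.continuousAt.preimage_mem_nhds (Sys.dom_nhds (dom_back i.hq).1)]
      with u hu
    exact s.eqv _ _ _ hu
  have hn : ∀ (i : Ix G St) (v : V), ‖v‖ ≤ 1 / 2 → ‖v - S.iS i.u‖ ≤ 1 := fun i v hv =>
    (norm_sub_le _ _).trans (by rw [S.norm_iS]; linarith [hu i])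
  have h6 := Gr.evo S.iS K h3 (fun i => hn i _ (dom_back i.hq).2) h5
  have h7 : Gr Ix.n j (fun i : Ix G St =>
      It (St.θ i.x) (Bo 𝔉 K St i.x) 0 (i.n + 1) (Lm s G K i.y i.η)) Ix.u := by
    obtain ⟨M, c, hM, hD⟩ := St.dat (cy_jf 𝔉 K).jc (cy_jf 𝔉 K).smul
    obtain ⟨C, -, hC⟩ := gain (E := E) (F := Du (Jet K V (Du F))) St.ρ (q := 1 / 2) (M := M)
      (by norm_num) (by norm_num) (by linarith) c j 0
    obtain ⟨C', -, hC'⟩ := bd_Lm K hG (j + 0)
    exact gr_of (c := C * C') (b := M * (1 / 2) ^ 0) (by positivity) fun i =>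
      (hC _ _ (hD i.x) 0 (i.n + 1) _ _ van_zero (bd_sub (hC' _ _ i.hη) hρ) _ i.hu).le
        (le_of_eq (by ring))
  have h8 : Gr Ix.n (K + 1) (fun i : Ix G St => LL 𝔉 K i.x i.y i.u) Ix.v := by
    have e1 : Gr Ix.n (K + 1) (fun (i : Ix G St) v => S.τ i.y i.x v - S.iS i.u) Ix.v :=
      (gr_τ Ix.hv hb ht').sub (gr_const (R := 1 / 4) fun i => by rw [S.norm_iS]; exact hu i)
    have e2 : Gr Ix.n (K + 1)
        (fun (i : Ix G St) v => polyL K V (Du F) (S.τ i.y i.x v - S.iS i.u)) Ix.v :=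
      Gr.comp (φ := fun _ => polyL K V (Du F)) (gr_ball (contDiff_polyL (k := K) (V := V)
        (W := Du F)) fun i => hn i _ (dom_back i.hv).2) e1
    exact Gr.compL (F := Jet K V (Du F)) (G := Du F) (H := Du F)
      (Gr.bil (G := Du F) (H := Du F) (tr F) (gr_A (𝔉 := 𝔉) Ix.hv hb ht')) e2
  filter_upwards [h3, h5, h6.sub h7, h8, h4] with Q a1 a2 a3 a4 a5 i
  exact ⟨a1 i, a2 i, a3 i, a4 i, (a5 i).norm_le⟩

/-- the difference of the two operators is a remainder of Taylor's formula -/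
theorem diff_eq {x : X} {n : ℕ} {η : B} {u : E} (hu : u ∈ ball (0 : E) St.ρ)
    (hq : Zg G (St.o x (n + 1)) η (th S x (St.o x (n + 1)) u) ∈ S.dom (St.o x (n + 1)) x)
    (a : Jet K V (Du F)) :
    (evo S.iS K (ze G x (St.o x (n + 1)) η) (fun u => s.e x (ze G x (St.o x (n + 1)) η u)) u
      - It (St.θ x) (Bo 𝔉 K St x) 0 (n + 1) (Lm s G K (St.o x (n + 1)) η) u) a
    = (LL 𝔉 K x (St.o x (n + 1)) u (Zg G (St.o x (n + 1)) η (th S x (St.o x (n + 1)) u)) a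
        - poly (jet K (fun v => LL 𝔉 K x (St.o x (n + 1)) u v a) (S.τ x (St.o x (n + 1)) (S.iS u)))
          (Zg G (St.o x (n + 1)) η (th S x (St.o x (n + 1)) u) - S.τ x (St.o x (n + 1)) (S.iS u)))
        (s.e (St.o x (n + 1)) (Zg G (St.o x (n + 1)) η (th S x (St.o x (n + 1)) u))) := by
  have h1 := St.it_eq (x := x) (k := 0) (n := n) (cy_jf 𝔉 K).coc (Lm s G K (St.o x (n + 1)) η) hu
  rw [St.o_zero, zero_add] at h1
  have hd := dom_o St x (n + 1) hu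
  have hp : S.pt (St.o x (n + 1)) = S.pt x := St.pt_o
  generalize St.o x (n + 1) = y at *
  have h2 : It (St.θ x) (Bo 𝔉 K St x) 0 (n + 1) (Lm s G K y η) u
      = jf 𝔉 K (x, y) (S.iS u) (Lm s G K y η (th S x y u)) := h1
  have h3 : (fun v => LL 𝔉 K x y u v a) = 𝔉.pull y x fun v => poly a (v - S.iS u) := by
    funext v
    simp only [LL, ContinuousLinearMap.comp_apply, polyL_apply, tr_apply, Bun.pull]
  rw [h2, h3]
  simp only [ContinuousLinearMap.sub_apply, jf, tr_apply, ContinuousLinearMap.comp_apply, Lm, evo,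
    LL, ContinuousLinearMap.apply_apply, polyL_apply, ze]
  rw [𝔉.JT_apply K (Sys.τ_dom hd), Sys.τ_τ hd, iS_th (congrArg Prod.snd hp).symm hd, s.eqv _ _ _ hq]

end Vale.Agent.P207Z.Apx
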